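import Vale.Agent.P371.Lower

namespace Vale.Agent.Results.P371.Sharp

open Vale.Agent.P371.LT

theorem result (γ : ℝ) (h1 : 1 / 2 < γ) (h2 : γ < 3 / 2) (m : ℕ) (hm : 1 ≤ m) :
    L γ m = ENNReal.ofReal (Lone γ) :=
  le_antisymm (Vale.Agent.P371.L_le h1 h2) (Vale.Agent.P371.le_L ⟨0, hm⟩ h1)

end Vale.Agent.Results.P371.Sharp
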